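import Vale.Agent.P042.H635.SideIn
import Vale.Agent.P042.H883.Sub
import Vale.Agent.P042.H362.HInst

set_option autoImplicit false
set_option linter.unusedSectionVars false

/-!
P042, power regime: (F1*) and (A*) of `H85.pfin` from `H121.f1_full` and `H635.sideIn_of`,
all hypotheses named: kernels (`KerIn`), laws of the two windows (`SideLaw`), numbers.
-/

namespace Vale.Agent.P042.H635

open Finset Polynomial Vale.Agent.P042.TT.Loc Vale.Agent.P042.UU.Loc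
open Vale.Agent.P042.H461 (W)
open Vale.Agent.P042.H74 (GamN)
open Vale.Agent.P042.H121 (SideIn M2f omr DDm)
open Vale.Agent.P042.H892 (LVNum)
open Vale.Agent.P042.H85 (FBa)
open Vale.Agent.P042.H362 (MMt)
open Vale.Agent.P042.H779.Ab.Ll (ThickG)

/-- **the law slots of one window** (`S`, `f` = normalised weight) -/
structure SideLaw {ι : Type} [Fintype ι] [DecidableEq ι] {V : ι → Type} [∀ i, Fintype (V i)]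
    [∀ i, DecidableEq (V i)] (w w2 : ∀ i, V i → ℝ) (red : ℤ → ∀ i, V i) (b γ A0 : ℝ)
    (m d ns : ℕ) (sc : ι → ℕ) (ℓ L A al lamf : ι → ℝ) (Λ a del G0 τ : ℝ) (κ : ℕ → ℝ)
    (Pr : Finset ℕ) (MT Θ A1 : ℝ) (M : ℕ) (y : ℤ) (S : Finset ℤ) (f : ℤ → ℝ) : Prop where
  win : S ⊆ Ioc y (y + M)
  nn : ∀ n ∈ S, 0 ≤ f n
  ch : ∀ n ∈ S, f n ≠ 0 → W w (red n) ≠ 0
  sup : ∀ (T : Finset ι) (x : ∀ i, V i), T.card ≤ d → (∀ i ∈ T, 0 < w i (x i)) →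
    ∀ n ∈ S, (M : ℝ) * (f n * ∏ i ∈ T, (w i (x i))⁻¹) ≤ A1
  cell : ∀ q : ℕ, 1 ≤ q → (q : ℝ) ≤ MT * Real.exp (Θ / 2) → (∀ p ∈ q.primeFactors, p ∈ Pr) →
    0 < κ q ∧ κ q * (q : ℝ) ^ (3 / (m : ℝ)) ≤ G0 * (q : ℝ) ^ τ ∧
    ∀ z : ℕ, z < q → ∑ n ∈ S, fcl f q z n ≠ 0 →
      ThickG b γ A0 w w2 (lawc red S (fcl f q z)) sc ns ℓ Λ L A al lamf a del
        (q * ∑ n ∈ S, fcl f q z n) (κ q)

/-- monotonicity in the exponent of the level inequality -/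
theorem sideIn_mono {ι : Type} [Fintype ι] [DecidableEq ι] {V : ι → Type} [∀ i, Fintype (V i)]
    [∀ i, DecidableEq (V i)] {m d : ℕ} {w : ∀ i, V i → ℝ} {red : ℤ → ∀ i, V i} {rho c : ι → ℝ}
    {M2 : Finset ℕ} {v : ℕ → ℝ} {C0 gn U x x' y : ℝ} {S : Finset ℤ} {f : ℤ → ℝ} (hC : 0 ≤ C0)
    (hgn : 0 ≤ gn) (hx : x ≤ x') (h : SideIn m d w red rho c M2 v C0 gn U x y S f) :
    SideIn m d w red rho c M2 v C0 gn U x' y S f := by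
  obtain ⟨Sg, SG, Fs, Es, Ga, h1, h2, h3, h4, h5⟩ := h
  refine ⟨Sg, SG, Fs, Es, Ga, h1, h2, h3, h4, fun T x0 hT hx0 A hA hsg =>
    (h5 T x0 hT hx0 A hA hsg).trans ?_⟩
  refine mul_le_mul_of_nonneg_right (mul_le_mul_of_nonneg_left (Real.exp_le_exp.2 hx)
    (mul_nonneg hC hgn)) (by positivity)

/-- **the absolute bounds at one vector of radii** -/
theorem f1_core {b γ ρ A0 η : ℝ} (hb : 0 < b) (hγ : 0 < γ) (hρ : 8 * γ + ρ ≤ 3 * b / 8)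
    (hA : 1 ≤ A0) (hη : 0 < η) (hη1 : η ≤ 1) : ∃ s1 : ℕ, ∀ {α J J' : Type} [Fintype α]
    [DecidableEq α] [Fintype J] [DecidableEq J] [Fintype J'] [DecidableEq J']
    {ty : α → J} {lo : α → Prop} [DecidablePred lo] {prm : α → ℕ}
    {V : {i // lo i} → Type} [∀ i, Fintype (V i)] [∀ i, DecidableEq (V i)]
    {w w2 : ∀ i, V i → ℝ} {red : ℤ → ∀ i, V i},
    (∀ i, (prm i).Prime) → Function.Injective prm →
    (∀ i a, 0 ≤ w i a) → (∀ i, ∑ a, w i a = 1) →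
    ∀ (g : ℤ[X]) (PP : Finset ℕ) {kw : ℕ → ℕ → ℝ},
    (∀ (q : ℕ) (a : ℤ), 1 ≤ q → IsCoprime a (q : ℤ) → ‖GamN g PP a q‖ ≤ kapProd kw q) →
    ∀ {k : ∀ i, V i → V i → ℝ} {c0 : {i // lo i} → ℝ} {u u' : ∀ i, V i → ℝ}
      {s : ∀ i, V i → V i → ℝ} {rho e : {i // lo i} → ℝ}, H365.OB w k c0 u u' s rho e →
    ∀ {m0 M0 : ℕ} {𝓜 : Finset ℕ}, (∀ m ∈ 𝓜, 1 ≤ m) →
    (∀ m ∈ 𝓜, ∀ i, ¬ lo i → ¬ prm i ∣ m) →
    -- the numbers of the low part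
    ∀ {sn : J → ℕ}, (∀ i : {i // lo i}, s1 ≤ sn (ty i)) →
    ∀ {m d ns : ℕ} {g0 Λ : ℝ} {c ℓ : {i // lo i} → ℝ} {r : J → ℝ} {Rs : ℕ → ℝ},
    1 ≤ m → (∀ i, 0 ≤ c i) → (∀ j, 0 ≤ r j) →
    H258.F1Num m b γ ρ g0 Λ sn (fun i : {i // lo i} => ty i) rho c ℓ r Rs ns m0 d →
    ∀ lm : ℝ, 0 ≤ lm → (∀ i, ℓ i ≤ lm) → 4 * (d * lm) ≤ Λ →
    -- the numbers of the top part
    ∀ {tyP : ℕ → Prop} [DecidablePred tyP] {Pr : Finset ℕ} {R : ℕ → ℝ}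
      {tyN : ℕ → J'} {ell' X' : J' → ℝ} {g1 N Y M : ℕ} {A1 τ Θ σ MT δ c4 t gn : ℝ},
    (∀ p, tyP p ↔ ∃ i, ¬ lo i ∧ prm i = p) → (∀ i, ¬ lo i → R (prm i) = r (ty i)) →
    LVNum tyP Pr kw R tyN ell' X' (M2f lo prm M0 𝓜) g1 N Y M A1 τ Θ σ MT δ c4 t gn →
    0 ≤ gn →
    -- the two windows
    ∀ {L A al lamf : {i // lo i} → ℝ} {a del G0 : ℝ} {κ : ℕ → ℝ},
    (∀ i, Real.exp (al i + A i) ≤ c i) → 0 ≤ G0 →
    ∀ {y1 y2 : ℤ} {S1 S2 : Finset ℤ} {f1 f2 : ℤ → ℝ},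
    SideLaw w w2 red b γ A0 m d ns (fun i : {i // lo i} => sn (ty i)) ℓ L A al lamf Λ a del G0 τ κ
      Pr MT Θ A1 M y1 S1 f1 →
    SideLaw w w2 red b γ A0 m d ns (fun i : {i // lo i} => sn (ty i)) ℓ L A al lamf Λ a del G0 τ κ
      Pr MT Θ A1 M y2 S2 f2 →
    -- the bounds
    ∀ {X Bd : J → ℝ} {C2 : ℝ}, ∑ j, X' j ≤ ∑ j, X j * r j →
    (∀ j, 2 * ∑ i : {i // lo i}, (if ty i = j then e i else 0) + X j ≤ Bd j) →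
    (∀ j, Real.exp (19 * γ * sn j) * (16 * m + 64) ^ 2 ≤ Bd j) →
    4 * (288 * (G0 ^ 2 + 1) * Real.exp 1) * (32 * Real.exp (2 * a + η) + 1) ≤ Real.exp C2 →
    ∑ m ∈ 𝓜, ∑ B ∈ DDm lo prm m0 M0 m,
        ‖FBa g PP S1 S2 f1 f2 prm lo (fun i n m => k i (red n i) (red m i)) m B‖ *
          ∏ i ∈ B, r (ty i) ≤
      gn * Real.exp (C2 + ∑ j, Bd j * (r j + r j ^ 2)) := by
  obtain ⟨s1, hs1⟩ := sideIn_of hb hγ hρ hA hη hη1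
  refine ⟨s1, ?_⟩
  intro α J J' _ _ _ _ _ _ ty lo _ prm V _ _ w w2 red hp hinj hw0 hw1 g PP kw hG k c0 u u' s rho e
    hK m0 M0 𝓜 h𝓜1 h𝓜 sn hsn m d ns g0 Λ c ℓ r Rs hm hc hr hN lm hlm hℓ hlen tyP _ Pr R tyN ell' X'
    g1 N Y M A1 τ Θ σ MT δ c4 t gn htyP hR hLV hgn L A al lamf a del G0 κ hcA hG0 y1 y2 S1 S2 f1 f2
    h1 h2 X Bd C2 hX he hBl hC2
  have hC0 : 0 ≤ 288 * (G0 ^ 2 + 1) * Real.exp 1 := by positivity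
  have e1 := hs1 hp hinj hw0 hw1 hsn hm hc hN lm hlm hℓ hlen htyP hR hLV h1.win h1.nn h1.ch h1.sup
    hcA hG0 h1.cell
  have e2 := hs1 hp hinj hw0 hw1 hsn hm hc hN lm hlm hℓ hlen htyP hR hLV h2.win h2.nn h2.ch h2.sup
    hcA hG0 h2.cell
  exact H121.f1_full hp hinj g PP kw hG hw0 hw1 hK h1.ch h2.ch m0 M0 h𝓜1 h𝓜 hr hm hc hN hC0 hgn
    (by positivity) (fun j => by positivity) (sideIn_mono hC0 hgn hX e1)
    (sideIn_mono hC0 hgn hX e2) he hBl hC2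

end Vale.Agent.P042.H635
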