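import Vale.Agent.P042.H461.LMass
import Vale.Agent.P042.H527.MixNv
import Vale.Agent.P042.H944.UoPush

set_option autoImplicit false
set_option linter.unusedSectionVars false

/-!
P042, power regime: the absolute second moments at all pins (`abs2_F`) in the form consumed by
`mix_nv_poly`, and the union bound over the top pins.
-/

namespace Vale.Agent.P042.H635

open Finset Vale.Agent.P042.TT.Loc Vale.Agent.P042.UU.Loc
open Vale.Agent.P042.H779.Ab (pw gdw Ref bt)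
open Vale.Agent.P042.H779.Ab.Ll (ThickG abs2_F len)
open Vale.Agent.P042.H779 (marg)

section
variable {ι : Type} [Fintype ι] [DecidableEq ι] {V : ι → Type} [∀ i, Fintype (V i)]
  [∀ i, DecidableEq (V i)] {w : ∀ i, V i → ℝ} {ν : (∀ i, V i) → ℝ}

theorem gdw_univ (x : ∀ i, V i) : gdw w ν univ x = ν x / pw w x := by
  unfold gdw pw
  congr 1
  unfold marg
  have h1 : ∀ y : ∀ i, V i, (if (∀ i ∈ (univ : Finset ι), y i = x i) then ν y else 0) =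
      if y = x then ν y else 0 := by
    intro y
    have : (∀ i ∈ (univ : Finset ι), y i = x i) ↔ y = x := by
      constructor
      · intro h
        funext i
        exact h i (mem_univ i)
      · intro h i _
        rw [h]
    by_cases h : y = x
    · rw [if_pos h, if_pos (this.2 h)]
    · rw [if_neg h, if_neg fun h' => h (this.1 h')]
  rw [sum_congr rfl fun y _ => h1 y, sum_ite_eq' univ x, if_pos (mem_univ x)]

/-- conditional expectation of a density -/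
theorem cexp_dens (H : Ref w ν) (m : ℝ) {F : (∀ i, V i) → ℝ}
    (hF : ∀ x, F x = m * (ν x / pw w x)) (P : Finset ι) (x : ∀ i, V i) :
    cexp w P F x = m * gdw w ν P x := by
  have h1 : gdw w ν P x = cexp w P (gdw w ν univ) x := by
    rw [← H482.gm_gdw H P, H944.gm_eq_cexp]
  rw [h1]
  unfold cexp
  rw [mul_sum]
  refine sum_congr rfl fun y _ => ?_
  rw [hF, gdw_univ]
  ring

theorem cexp_restr (S T : Finset ι) (u : ∀ i, V i) (F : (∀ i, V i) → ℝ) (x : ∀ i, V i) :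
    cexp w T (restr S u F) x = cexp w (S ∪ T) F (S.piecewise u x) := by
  unfold cexp restr
  refine sum_congr rfl fun y _ => ?_
  congr 2
  funext i
  by_cases hS : i ∈ S
  · rw [piecewise_eq_of_mem _ _ _ hS, piecewise_eq_of_mem _ _ _ (mem_union_left _ hS),
      piecewise_eq_of_mem _ _ _ hS]
  · rw [piecewise_eq_of_notMem _ _ _ hS]
    by_cases hT : i ∈ T
    · rw [piecewise_eq_of_mem _ _ _ hT, piecewise_eq_of_mem _ _ _ (mem_union_right _ hT),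
        piecewise_eq_of_notMem _ _ _ hS]
    · rw [piecewise_eq_of_notMem _ _ _ hT, piecewise_eq_of_notMem _ _ _ (by
        rw [mem_union, not_or]; exact ⟨hS, hT⟩)]

end

/-- **(E)**: the truncated energies of the restrictions of a measure with the pins inequality -/
theorem hE_of {b γ ρ A0 η : ℝ} (hb : 0 < b) (hγ : 0 < γ) (hρ : 8 * γ + ρ ≤ 3 * b / 8)
    (hA : 1 ≤ A0) (hη : 0 < η) (hη1 : η ≤ 1) : ∃ s1 : ℕ, ∀ {ι : Type} [Fintype ι]
    [DecidableEq ι] {V : ι → Type} [∀ i, Fintype (V i)] [∀ i, DecidableEq (V i)]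
    {w w2 : ∀ i, V i → ℝ} {ν : (∀ i, V i) → ℝ} {sc : ι → ℕ} {ns : ℕ} {ℓ : ι → ℝ} {Λ : ℝ}
    {L A α lamf : ι → ℝ} {a del m κ : ℝ},
    ThickG b γ A0 w w2 ν sc ns ℓ Λ L A α lamf a del m κ → (∀ i, s1 ≤ sc i) →
    ∀ {σ : ι → ℝ} {r : ℕ → ℝ}, (∀ i, 0 ≤ σ i) → (∀ s, 0 ≤ r s) →
    (∀ s : ℕ, r s ≤ Real.exp (ρ * s)) →
    (∀ i, σ i ≤ Real.exp ((-(b / 2) + γ) * sc i) * r (sc i)) →
    8 * ∑ i, σ i * Real.exp (4 * γ * sc i + 1) * ℓ i ≤ Λ →
    ∀ (d N : ℕ) (lm : ℝ), 0 ≤ lm → (∀ i, ℓ i ≤ lm) → 2 * (N * lm) ≤ Λ →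
    (d : ℝ) + 2 * ∑ i, σ i ≤ N →
    ∀ F : (∀ i, V i) → ℝ, (∀ x, F x = m * (ν x / pw w x)) →
    ∀ (T : Finset ι) (u : ∀ i, V i), T.card ≤ d →
    TT.Loc.en w σ (tr w (d - T.card) (restr T u F)) ≤
      (∏ i ∈ T, Real.exp (α i + A i)) ^ 2 * (16 * (κ * Real.exp a) ^ 2 *
        Real.exp (η + ∑ j ∈ range ns, Real.exp (19 * γ * j) * r j ^ 2)) := by
  obtain ⟨s1, hs1⟩ := abs2_F hb hγ hρ hA hη hη1
  refine ⟨s1, ?_⟩
  intro ι _ _ V _ _ w w2 ν sc ns ℓ Λ L A α lamf a del m κ hT hsc σ r σ0 r0 r1 σ1 hsum d N lm hlm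
    hℓ hN hd F hF T u hTd
  obtain ⟨hσ, hmain⟩ := hs1 hT hsc σ0 r0 r1 σ1 hsum
  have H := hT.ref
  have hlen : ∀ S : Finset ι, S.card ≤ N → len ℓ S ≤ N * lm := by
    intro S hS
    have h1 : len ℓ S ≤ ∑ _i ∈ S, lm := sum_le_sum fun i _ => hℓ i
    rw [sum_const, nsmul_eq_mul] at h1
    have h2 : (S.card : ℝ) ≤ N := by exact_mod_cast hS
    exact h1.trans (mul_le_mul_of_nonneg_right h2 hlm)
  have hσs : 0 ≤ ∑ i, σ i := sum_nonneg fun i _ => σ0 i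
  have hdN : d ≤ N := by
    have : (d : ℝ) ≤ N := by linarith
    exact_mod_cast this
  have hΛ := hT.Λ0
  have hTl : len ℓ T ≤ Λ := by
    have := hlen T (hTd.trans hdN)
    linarith
  have hm1 := hmain T hTl u (univ.filter fun S : Finset ι => S.card ≤ N) (fun S hS => by
    have := hlen S (mem_filter.1 hS).2
    linarith)
  have hk : ((d - T.card : ℕ) : ℝ) + 2 * ∑ i, σ i ≤ N := by
    have : ((d - T.card : ℕ) : ℝ) ≤ d := by exact_mod_cast Nat.sub_le _ _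
    linarith
  have h2 := H527.en_of_moments w H.w_nonneg H.w_sum σ σ0 (fun i => (hσ i).trans (by norm_num))
    (d - T.card) N (restr T u F) hk _ (by
      refine le_trans (le_of_eq ?_) hm1
      refine sum_congr rfl fun S _ => ?_
      unfold Wp bt
      congr 1
      unfold ex
      refine sum_congr rfl fun x _ => ?_
      have e1 : cexp w S (restr T u F) x = m * gdw w ν (T ∪ S) (T.piecewise u x) := by
        rw [cexp_restr, cexp_dens H m hF]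
      show wt w x * cexp w S (restr T u F) x ^ 2 = _
      rw [e1]
      rfl)
  refine h2.trans (le_of_eq ?_)
  rw [← Real.exp_sum, Real.exp_add (∑ i ∈ T, (α i + A i)) a]
  ring

section
variable {ι : Type} [Fintype ι] [DecidableEq ι] {V : ι → Type} [∀ i, Fintype (V i)]
  [∀ i, DecidableEq (V i)]

/-- the law of the weight `g` on `S`, pushed to the product space -/
noncomputable def lawc (red : ℤ → ∀ i, V i) (S : Finset ℤ) (g : ℤ → ℝ) (x : ∀ i, V i) : ℝ :=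
  (∑ n ∈ S.filter (fun n => red n = x), g n) / ∑ n ∈ S, g n

/-- the weight `f` on the class `z mod d` -/
noncomputable def fcl (f : ℤ → ℝ) (d : ℕ) (z : ℤ) (n : ℤ) : ℝ :=
  if n ≡ z [ZMOD (d : ℤ)] then f n else 0

omit [DecidableEq ι] [∀ i, Fintype (V i)] in
theorem pF_lawc {w : ∀ i, V i → ℝ} {red : ℤ → ∀ i, V i} {S : Finset ℤ} {g : ℤ → ℝ}
    (hg : ∑ n ∈ S, g n ≠ 0) (q : ℝ) (x : ∀ i, V i) :
    q * H944.pF w red S g x = (q * ∑ n ∈ S, g n) * (lawc red S g x / pw w x) := by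
  unfold H944.pF lawc
  have e : H461.W w x = pw w x := rfl
  rw [e, div_div, mul_assoc]
  congr 1
  rw [← mul_div_assoc, mul_div_mul_left _ _ hg]

theorem en_zero (w : ∀ i, V i → ℝ) (σ : ι → ℝ) (k : ℕ) (T : Finset ι) (u : ∀ i, V i)
    (F : (∀ i, V i) → ℝ) (hF : ∀ x, F x = 0) :
    TT.Loc.en w σ (tr w k (restr T u F)) = 0 := by
  have h1 : restr T u F = fun _ => 0 := by
    funext x
    exact hF _
  have h2 : tr w k (restr T u F) = fun _ => 0 := by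
    funext x
    rw [h1]
    unfold tr
    refine sum_eq_zero fun W _ => ?_
    unfold cW ten
    exact sum_eq_zero fun y _ => by rw [mul_zero]
  rw [h2]
  unfold TT.Loc.en bf
  simp

end

/-- **(E), integer side**: `F = q · pF w red S g`, `g ≥ 0` any weight (a cell of `f`); the
hypothesis is the pins inequality of the law of `g` with mass `q · ∑ g`. -/
theorem hE_side {b γ ρ A0 η : ℝ} (hb : 0 < b) (hγ : 0 < γ) (hρ : 8 * γ + ρ ≤ 3 * b / 8)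
    (hA : 1 ≤ A0) (hη : 0 < η) (hη1 : η ≤ 1) : ∃ s1 : ℕ, ∀ {ι : Type} [Fintype ι]
    [DecidableEq ι] {V : ι → Type} [∀ i, Fintype (V i)] [∀ i, DecidableEq (V i)]
    {w w2 : ∀ i, V i → ℝ} {sc : ι → ℕ} {ns : ℕ} {ℓ : ι → ℝ} {Λ : ℝ}
    {L A α lamf : ι → ℝ} {a del κ : ℝ} {red : ℤ → ∀ i, V i} {S : Finset ℤ} {g : ℤ → ℝ} {q : ℝ},
    (∑ n ∈ S, g n ≠ 0 → ThickG b γ A0 w w2 (lawc red S g) sc ns ℓ Λ L A α lamf a del
      (q * ∑ n ∈ S, g n) κ) → (∀ n ∈ S, 0 ≤ g n) → (∀ i, s1 ≤ sc i) →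
    ∀ {σ : ι → ℝ} {r : ℕ → ℝ}, (∀ i, 0 ≤ σ i) → (∀ s, 0 ≤ r s) →
    (∀ s : ℕ, r s ≤ Real.exp (ρ * s)) →
    (∀ i, σ i ≤ Real.exp ((-(b / 2) + γ) * sc i) * r (sc i)) →
    8 * ∑ i, σ i * Real.exp (4 * γ * sc i + 1) * ℓ i ≤ Λ →
    ∀ (d N : ℕ) (lm : ℝ), 0 ≤ lm → (∀ i, ℓ i ≤ lm) → 2 * (N * lm) ≤ Λ →
    (d : ℝ) + 2 * ∑ i, σ i ≤ N →
    ∀ (T : Finset ι) (u : ∀ i, V i), T.card ≤ d →
    TT.Loc.en w σ (tr w (d - T.card) (restr T u (fun x => q * H944.pF w red S g x))) ≤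
      (∏ i ∈ T, Real.exp (α i + A i)) ^ 2 * (16 * (κ * Real.exp a) ^ 2 *
        Real.exp (η + ∑ j ∈ range ns, Real.exp (19 * γ * j) * r j ^ 2)) := by
  obtain ⟨s1, hs1⟩ := hE_of hb hγ hρ hA hη hη1
  refine ⟨s1, ?_⟩
  intro ι _ _ V _ _ w w2 sc ns ℓ Λ L A α lamf a del κ red S g q hT hg hsc σ r σ0 r0 r1 σ1 hsum
    d N lm hlm hℓ hN hd T u hTd
  by_cases h0 : ∑ n ∈ S, g n = 0
  · have hz : ∀ n ∈ S, g n = 0 := (sum_eq_zero_iff_of_nonneg hg).1 h0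
    rw [en_zero w σ _ T u _ fun x => by
      unfold H944.pF
      rw [sum_eq_zero fun n hn => hz n (mem_filter.1 hn).1, zero_div, mul_zero]]
    positivity
  · exact hs1 (hT h0) hsc σ0 r0 r1 σ1 hsum d N lm hlm hℓ hN hd _ (fun x => pF_lawc h0 q x) T u hTd

/-- **(U)**: union over the top pins: classes `z < q`, sizes `κ q · q ^ (3 / m)` -/
theorem U_sum (m : ℕ) (hm : 1 ≤ m) (E0 : ℝ) (hE0 : 0 ≤ E0) (QT : Finset ℕ)
    (h1 : ∀ q ∈ QT, 1 ≤ q) (kap : ℕ → ℝ) (hk : ∀ q ∈ QT, 0 < kap q) :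
    (∑ sg ∈ QT.sigma (fun q => range q),
      ((E0 * kap sg.1 ^ 2) / (kap sg.1 * (sg.1 : ℝ) ^ (3 / (m : ℝ))) ^ 2) ^ m) ^ ((m : ℝ)⁻¹) ≤
      2 * E0 := by
  have hm0 : (m : ℝ) ≠ 0 := by
    have : (1 : ℝ) ≤ m := by exact_mod_cast hm
    linarith
  have hmN : m ≠ 0 := by omega
  have hterm : ∀ q ∈ QT, ((E0 * kap q ^ 2) / (kap q * (q : ℝ) ^ (3 / (m : ℝ))) ^ 2) ^ m =
      E0 ^ m * ((q : ℝ) ^ 6)⁻¹ := by
    intro q hq
    have hq0 : (0 : ℝ) < q := by exact_mod_cast (h1 q hq)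
    have hkq := hk q hq
    have e1 : (E0 * kap q ^ 2) / (kap q * (q : ℝ) ^ (3 / (m : ℝ))) ^ 2 =
        E0 * (((q : ℝ) ^ (3 / (m : ℝ))) ^ 2)⁻¹ := by
      have : (q : ℝ) ^ (3 / (m : ℝ)) ≠ 0 := (Real.rpow_pos_of_pos hq0 _).ne'
      field_simp
    rw [e1, mul_pow, inv_pow]
    congr 2
    rw [← pow_mul, ← Real.rpow_natCast, ← Real.rpow_mul hq0.le, ← Real.rpow_natCast]
    congr 1
    push_cast
    field_simp
    norm_num
  have hsum : ∑ sg ∈ QT.sigma (fun q => range q),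
      ((E0 * kap sg.1 ^ 2) / (kap sg.1 * (sg.1 : ℝ) ^ (3 / (m : ℝ))) ^ 2) ^ m ≤ 2 * E0 ^ m := by
    rw [sum_sigma]
    have h2 : ∀ q ∈ QT, ∑ _z ∈ range q,
        ((E0 * kap q ^ 2) / (kap q * (q : ℝ) ^ (3 / (m : ℝ))) ^ 2) ^ m ≤
        E0 ^ m * ((q : ℝ) ^ 2)⁻¹ := by
      intro q hq
      have hq1 : (1 : ℝ) ≤ q := by exact_mod_cast (h1 q hq)
      rw [sum_const, card_range, nsmul_eq_mul, hterm q hq]
      have h3 : (q : ℝ) * ((q : ℝ) ^ 6)⁻¹ ≤ ((q : ℝ) ^ 2)⁻¹ := by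
        have hq0 : (0 : ℝ) < q := by linarith
        rw [← div_eq_mul_inv, div_le_iff₀ (by positivity), inv_mul_eq_div,
          le_div_iff₀ (by positivity)]
        calc (q : ℝ) * (q : ℝ) ^ 2 = (q : ℝ) ^ 3 := by ring
          _ ≤ (q : ℝ) ^ 6 := pow_le_pow_right₀ hq1 (by norm_num)
      calc (q : ℝ) * (E0 ^ m * ((q : ℝ) ^ 6)⁻¹) = E0 ^ m * ((q : ℝ) * ((q : ℝ) ^ 6)⁻¹) := by ring
        _ ≤ _ := mul_le_mul_of_nonneg_left h3 (pow_nonneg hE0 _)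
    refine (sum_le_sum h2).trans ?_
    rw [← mul_sum, mul_comm]
    refine mul_le_mul_of_nonneg_right ?_ (pow_nonneg hE0 _)
    -- sum of inverse squares
    obtain ⟨K, hK⟩ : ∃ K : ℕ, ∀ q ∈ QT, q ≤ K + 1 := by
      refine ⟨QT.sup id, fun q hq => ?_⟩
      have := le_sup (f := id) hq
      simp only [id] at this
      omega
    have hsq : ∀ K : ℕ, ∑ q ∈ Icc 1 (K + 1), ((q : ℝ) ^ 2)⁻¹ ≤ 2 - 1 / (K + 1 : ℝ) := by
      intro K
      induction K with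
      | zero => norm_num
      | succ K ih =>
        rw [sum_Icc_succ_top (by omega)]
        refine (add_le_add ih le_rfl).trans ?_
        push_cast
        have hK1 : (0 : ℝ) < (K : ℝ) + 1 := by positivity
        have hK2 : (0 : ℝ) < (K : ℝ) + 1 + 1 := by positivity
        have h4 : (((K : ℝ) + 1 + 1) ^ 2)⁻¹ ≤ 1 / ((K : ℝ) + 1) - 1 / ((K : ℝ) + 1 + 1) := by
          rw [div_sub_div _ _ hK1.ne' hK2.ne', inv_eq_one_div, div_le_div_iff₀ (by positivity)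
            (by positivity)]
          nlinarith
        linarith
    have h5 : ∑ q ∈ QT, ((q : ℝ) ^ 2)⁻¹ ≤ ∑ q ∈ Icc 1 (K + 1), ((q : ℝ) ^ 2)⁻¹ :=
      sum_le_sum_of_subset_of_nonneg (fun q hq => mem_Icc.2 ⟨h1 q hq, hK q hq⟩)
        fun q _ _ => by positivity
    have h6 := hsq K
    have h7 : (0 : ℝ) < 1 / (K + 1 : ℝ) := by positivity
    linarith
  have h8 : (0 : ℝ) ≤ (m : ℝ)⁻¹ := by positivity
  have h9 : ∀ sg ∈ QT.sigma (fun q => range q),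
      0 ≤ ((E0 * kap sg.1 ^ 2) / (kap sg.1 * (sg.1 : ℝ) ^ (3 / (m : ℝ))) ^ 2) ^ m := fun sg _ =>
    pow_nonneg (div_nonneg (mul_nonneg hE0 (sq_nonneg _)) (sq_nonneg _)) _
  refine (Real.rpow_le_rpow (sum_nonneg h9) hsum h8).trans ?_
  rw [Real.mul_rpow (by norm_num) (pow_nonneg hE0 _), Real.pow_rpow_inv_natCast hE0 hmN]
  refine mul_le_mul_of_nonneg_right ?_ hE0
  calc (2 : ℝ) ^ ((m : ℝ)⁻¹) ≤ (2 : ℝ) ^ (1 : ℝ) := by
        refine Real.rpow_le_rpow_of_exponent_le (by norm_num) ?_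
        rw [inv_le_one₀ (by positivity)]
        exact_mod_cast hm
    _ = 2 := Real.rpow_one 2

end Vale.Agent.P042.H635
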