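import Vale.Agent.P042.H635.NvE

set_option autoImplicit false
set_option linter.unusedSectionVars false

/-!
P042, F.F1d: the weighted energy of one side from the mixed level inequality.
-/

namespace Vale.Agent.P042.H635

open Finset Vale.Agent.P042.TT.Loc Vale.Agent.P042.UU.Loc
open Vale.Agent.P042.H944 (pF zc Eng EngC Ytop)

section
variable {ι : Type} [Fintype ι] [DecidableEq ι] {V : ι → Type} [∀ i, Fintype (V i)]
  [∀ i, DecidableEq (V i)] {w : ∀ i, V i → ℝ} {red : ℤ → ∀ i, V i}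

/-- the noise -/
noncomputable def nz (m : ℕ) (c : ι → ℝ) (i : ι) : ℝ := 1 / (8 * m * (1 + c i))

/-- **one side of (F1*) / (A*)** -/
theorem side (h0 : ∀ i a, 0 ≤ w i a) (h1 : ∀ i, ∑ a, w i a = 1) {S : Finset ℤ} {f : ℤ → ℝ}
    (m : ℕ) (hm : 1 ≤ m) {rh r0 c : ι → ℝ} (hrh : ∀ i, 0 ≤ rh i) (hr1 : ∀ i, r0 i ≤ 1)
    (hc : ∀ i, 0 ≤ c i) (hsr : ∀ i, (8 * m + 32) * (2 * rh i) ≤ r0 i)
    (hs1 : ∀ i, (8 * m * (1 + c i)) ^ 2 * (2 * rh i) ≤ 1) (kk d : ℕ)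
    (hd : (kk : ℝ) + 2 * ∑ i, (8 * m * (1 + c i)) ^ 2 * (2 * rh i) ≤ d)
    (QT : Finset ℕ) (hQT : ∀ q ∈ QT, 1 ≤ q) (kap : ℕ → ℝ) (hk : ∀ q ∈ QT, 0 < kap q)
    (E0 : ℝ) (hE0 : 0 ≤ E0)
    (hE : ∀ q ∈ QT, ∀ z : ℕ, z < q → ∀ (T : Finset ι) (a : ∀ i, V i), T.card ≤ d →
      (∀ i ∈ T, w i (a i) ≠ 0) →
      TT.Loc.en w r0 (tr w (d - T.card) (restr T a (fun x => (q : ℝ) * pF w red S (fcl f q z) x))) ≤
        (∏ i ∈ T, c i) ^ 2 * (E0 * kap q ^ 2))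
    (M2 : Finset ℕ) (v : ℕ → ℝ) (hv : ∀ q ∈ M2, 0 ≤ v q) (ε : ℝ) (hε : 0 ≤ ε)
    (hLV : ∀ (T : Finset ι) (x : ∀ i, V i), T.card ≤ d → (∀ i ∈ T, w i (x i) ≠ 0) →
      ∀ A : ℝ, 0 ≤ A →
      (∀ q ∈ QT, ∀ z : ℕ, z < q → uo (nz m c) w (fun x => (q : ℝ) * pF w red S (fcl f q z) x)
        (mask T x) ≤ A * (kap q * (q : ℝ) ^ (3 / (m : ℝ)))) →
      ∑ q ∈ M2, v q * ∑ a ∈ (range q).filter (Nat.Coprime q),
        (uo (nz m c) w (pF w red S (fun n => f n * (zc a q n).re)) (mask T x) ^ 2 +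
          uo (nz m c) w (pF w red S (fun n => f n * (zc a q n).im)) (mask T x) ^ 2) ≤
        ε * (A ^ 2 + 1)) :
    Ytop w red rh (univ.filter fun C : Finset ι => C.card ≤ kk) M2 v S f ≤
      2 * ε * (2 * E0 + 1) := by
  classical
  obtain ⟨KA, hKA⟩ : ∃ KA : Finset (Σ _ : ℕ, Σ _ : ℕ, Bool),
      KA = M2.sigma fun q => ((range q).filter (Nat.Coprime q)).sigma fun _ => univ := ⟨_, rfl⟩
  obtain ⟨Fk, hFk⟩ : ∃ Fk : (Σ _ : ℕ, Σ _ : ℕ, Bool) → (∀ i, V i) → ℝ,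
      Fk = fun k => pF w red S (fun n =>
        f n * (if k.2.2 then (zc k.2.1 k.1 n).re else (zc k.2.1 k.1 n).im)) := ⟨_, rfl⟩
  have hKs : ∀ G : (Σ _ : ℕ, Σ _ : ℕ, Bool) → ℝ, ∑ k ∈ KA, G k =
      ∑ q ∈ M2, ∑ a ∈ (range q).filter (Nat.Coprime q), (G ⟨q, a, true⟩ + G ⟨q, a, false⟩) := by
    intro G
    rw [hKA, sum_sigma]
    refine sum_congr rfl fun q _ => ?_
    rw [sum_sigma]
    refine sum_congr rfl fun a _ => ?_
    rw [Fintype.sum_bool]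
  have hmain := H527.mix_nv_poly m hm (fun i => 2 * rh i) r0 c
    (fun i => mul_nonneg zero_le_two (hrh i)) hr1 hc hsr hs1 w h0 h1 kk d hd
    (QT.sigma fun q => range q)
    (fun sg x => (sg.1 : ℝ) * pF w red S (fcl f sg.1 (sg.2 : ℕ)) x)
    (fun sg => E0 * kap sg.1 ^ 2) (fun sg => kap sg.1 * (sg.1 : ℝ) ^ (3 / (m : ℝ)))
    (fun sg hsg => mul_pos (hk _ (mem_sigma.1 hsg).1)
      (Real.rpow_pos_of_pos (by exact_mod_cast hQT _ (mem_sigma.1 hsg).1) _))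
    (fun sg hsg => mul_nonneg hE0 (sq_nonneg _))
    (fun sg hsg T a hT ha => hE _ (mem_sigma.1 hsg).1 _ (mem_range.1 (mem_sigma.1 hsg).2) T a hT ha)
    KA (fun k => v k.1) (fun k hkA => by
      rw [hKA, mem_sigma] at hkA
      exact hv _ hkA.1) Fk ε hε (by
      intro T x hT hx A hA hsg
      have h2 := hLV T x hT hx A hA (fun q hq z hz =>
        hsg ⟨q, z⟩ (mem_sigma.2 ⟨hq, mem_range.2 hz⟩))
      rw [hKs]
      refine le_trans (le_of_eq ?_) h2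
      refine sum_congr rfl fun q _ => ?_
      rw [mul_sum]
      refine sum_congr rfl fun a _ => ?_
      rw [hFk]
      simp only [if_true, Bool.false_eq_true, if_false]
      rw [← mul_add]
      rfl)
  have hU := U_sum m hm E0 hE0 QT hQT kap hk
  have hL : ∑ W ∈ univ.filter (fun W : Finset ι => W.card ≤ kk),
      (∏ i ∈ W, 2 * rh i) * ∑ k ∈ KA, v k.1 * nW w W (Fk k) =
      Ytop w red rh (univ.filter fun C : Finset ι => C.card ≤ kk) M2 v S f := by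
    unfold Ytop EngC Eng
    have e1 : ∀ W : Finset ι, (∏ i ∈ W, 2 * rh i) * ∑ k ∈ KA, v k.1 * nW w W (Fk k) =
        ∑ k ∈ KA, (∏ i ∈ W, 2 * rh i) * (v k.1 * nW w W (Fk k)) := fun W => by rw [mul_sum]
    rw [sum_congr rfl fun W _ => e1 W, sum_comm, hKs]
    refine sum_congr rfl fun q _ => ?_
    rw [mul_sum]
    refine sum_congr rfl fun a _ => ?_
    rw [hFk]
    simp only [if_true, Bool.false_eq_true, if_false]
    rw [mul_add, mul_sum, mul_sum]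
    congr 1
    · refine sum_congr rfl fun W _ => ?_
      rw [← H944.nW_eq_ip h1]
      ring
    · refine sum_congr rfl fun W _ => ?_
      rw [← H944.nW_eq_ip h1]
      ring
  rw [hL] at hmain
  refine hmain.trans ?_
  refine mul_le_mul_of_nonneg_left ?_ (mul_nonneg zero_le_two hε)
  linarith

end

end Vale.Agent.P042.H635
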