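import Vale.Agent.P042.H635.NvE
import Vale.Agent.P042.H121.F1d
import Vale.Agent.P042.H892.LV

set_option autoImplicit false
set_option linter.unusedSectionVars false

/-!
P042, F.F1d: the hypothesis `SideIn` of `H121.f1_full` from the pins inequality of the cells
(`ThickG`), the numbers `F1Num` and the level inequality `H892.LV`.
-/

namespace Vale.Agent.P042.H635

open Finset Vale.Agent.P042.TT.Loc Vale.Agent.P042.UU.Loc
open Vale.Agent.P042.H461 (W)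
open Vale.Agent.P042.H944 (pF zc)
open Vale.Agent.P042.H121 (SideIn M2f omr)
open Vale.Agent.P042.H892 (LVNum LV omR)
open Vale.Agent.P042.H779.Ab.Ll (ThickG)

/-- the two forms of the weight of a modulus -/
theorem omr_eq_omR {α : Type*} [Fintype α] [DecidableEq α] {prm : α → ℕ}
    (hp : ∀ i, (prm i).Prime) (hinj : Function.Injective prm) (lo : α → Prop) [DecidablePred lo]
    {tyP : ℕ → Prop} [DecidablePred tyP] (htyP : ∀ p, tyP p ↔ ∃ i, ¬ lo i ∧ prm i = p)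
    {r : α → ℝ} {R : ℕ → ℝ} (hR : ∀ i, ¬ lo i → R (prm i) = r i) {q : ℕ} (hq : q ≠ 0) :
    omr lo prm r q = omR tyP R q := by
  unfold H121.omr H892.omR
  refine prod_nbij (fun i => prm i) ?_ ?_ ?_ ?_
  · intro i hi
    obtain ⟨-, h1, h2⟩ := mem_filter.1 hi
    rw [mem_filter, Nat.mem_primeFactors]
    exact ⟨⟨hp i, h2, hq⟩, (htyP _).2 ⟨i, h1, rfl⟩⟩
  · intro i _ j _ h
    exact hinj h
  · intro p hp'
    rw [mem_coe, mem_filter] at hp'
    obtain ⟨h1, h2⟩ := hp'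
    obtain ⟨i, hi, rfl⟩ := (htyP _).1 h2
    refine ⟨i, ?_, rfl⟩
    rw [mem_coe, mem_filter]
    exact ⟨mem_univ _, hi, Nat.dvd_of_mem_primeFactors h1⟩
  · intro i hi
    exact (hR i (mem_filter.1 hi).2.1).symm

section
variable {ι : Type} [Fintype ι] [DecidableEq ι] {V : ι → Type} [∀ i, Fintype (V i)]
  [∀ i, DecidableEq (V i)] {w : ∀ i, V i → ℝ} {red : ℤ → ∀ i, V i}

/-- the weight of a cell, both forms -/
theorem pF_fcl (S : Finset ℤ) (f : ℤ → ℝ) (d : ℕ) (z : ℤ) :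
    pF w red S (fun n => if n ≡ z [ZMOD (d : ℕ)] then (d : ℝ) * f n else 0) =
      fun x => (d : ℝ) * pF w red S (fcl f d z) x := by
  funext x
  unfold H944.pF fcl
  rw [← mul_div_assoc, mul_sum]
  congr 1
  refine sum_congr rfl fun n _ => ?_
  show (if n ≡ z [ZMOD (d : ℕ)] then (d : ℝ) * f n else 0) =
    (d : ℝ) * (if n ≡ z [ZMOD (d : ℤ)] then f n else 0)
  split_ifs
  · rfl
  · rw [mul_zero]

end

/-- **`SideIn` of one window** -/
theorem sideIn_of {b γ ρ A0 η : ℝ} (hb : 0 < b) (hγ : 0 < γ) (hρ : 8 * γ + ρ ≤ 3 * b / 8)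
    (hA : 1 ≤ A0) (hη : 0 < η) (hη1 : η ≤ 1) : ∃ s1 : ℕ, ∀ {α J J' : Type} [Fintype α]
    [DecidableEq α] [Fintype J] [DecidableEq J] [Fintype J'] [DecidableEq J']
    {ty : α → J} {lo : α → Prop} [DecidablePred lo] {prm : α → ℕ}
    {V : {i // lo i} → Type} [∀ i, Fintype (V i)] [∀ i, DecidableEq (V i)]
    {w w2 : ∀ i, V i → ℝ} {red : ℤ → ∀ i, V i},
    (∀ i, (prm i).Prime) → Function.Injective prm →
    (∀ i a, 0 ≤ w i a) → (∀ i, ∑ a, w i a = 1) →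
    ∀ {rho : {i // lo i} → ℝ} {sn : J → ℕ}, (∀ i : {i // lo i}, s1 ≤ sn (ty i)) →
    -- the numbers of the low part
    ∀ {m d ns m0 : ℕ} {g0 Λ : ℝ} {c ℓ : {i // lo i} → ℝ} {r : J → ℝ} {Rs : ℕ → ℝ},
    1 ≤ m → (∀ i, 0 ≤ c i) →
    H258.F1Num m b γ ρ g0 Λ sn (fun i : {i // lo i} => ty i) rho c ℓ r Rs ns m0 d →
    ∀ lm : ℝ, 0 ≤ lm → (∀ i, ℓ i ≤ lm) → 4 * (d * lm) ≤ Λ →
    -- the numbers of the top part
    ∀ {tyP : ℕ → Prop} [DecidablePred tyP] {Pr : Finset ℕ} {kw : ℕ → ℕ → ℝ} {R : ℕ → ℝ}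
      {tyN : ℕ → J'} {ell X : J' → ℝ} {M0 : ℕ} {MM : Finset ℕ} {g1 N Y M : ℕ}
      {A1 τ Θ σ MT δ c4 s gn : ℝ},
    (∀ p, tyP p ↔ ∃ i, ¬ lo i ∧ prm i = p) → (∀ i, ¬ lo i → R (prm i) = r (ty i)) →
    LVNum tyP Pr kw R tyN ell X (M2f lo prm M0 MM) g1 N Y M A1 τ Θ σ MT δ c4 s gn →
    -- the window
    ∀ {S : Finset ℤ} {y : ℤ} {f : ℤ → ℝ}, S ⊆ Ioc y (y + M) → (∀ n ∈ S, 0 ≤ f n) →
    (∀ n ∈ S, f n ≠ 0 → W w (red n) ≠ 0) →
    (∀ (T : Finset {i // lo i}) (x : ∀ i, V i), T.card ≤ d → (∀ i ∈ T, 0 < w i (x i)) →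
      ∀ n ∈ S, (M : ℝ) * (f n * ∏ i ∈ T, (w i (x i))⁻¹) ≤ A1) →
    -- the pins inequality of the cells
    ∀ {L A al lamf : {i // lo i} → ℝ} {a del G0 : ℝ} {κ : ℕ → ℝ},
    (∀ i, Real.exp (al i + A i) ≤ c i) → 0 ≤ G0 →
    (∀ q : ℕ, 1 ≤ q → (q : ℝ) ≤ MT * Real.exp (Θ / 2) → (∀ p ∈ q.primeFactors, p ∈ Pr) →
      0 < κ q ∧ κ q * (q : ℝ) ^ (3 / (m : ℝ)) ≤ G0 * (q : ℝ) ^ τ ∧
      ∀ z : ℕ, z < q → ∑ n ∈ S, fcl f q z n ≠ 0 →
        ThickG b γ A0 w w2 (lawc red S (fcl f q z)) (fun i : {i // lo i} => sn (ty i)) ns ℓ Λ L A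
          al lamf a del (q * ∑ n ∈ S, fcl f q z n) (κ q)) →
    SideIn m d w red (fun i => r (ty i) * rho i) c (M2f lo prm M0 MM)
      (fun q => omr lo prm (fun i => r (ty i)) q * kapProd kw q)
      (288 * (G0 ^ 2 + 1) * Real.exp 1) gn (32 * Real.exp (2 * a + η)) (∑ j, X j)
      (∑ j, (Real.exp (19 * γ * sn j) * (16 * m + 64) ^ 2) * r j ^ 2) S f := by
  obtain ⟨s1, hs1⟩ := hE_side hb hγ hρ hA hη hη1
  refine ⟨s1, ?_⟩
  intro α J J' _ _ _ _ _ _ ty lo _ prm V _ _ w w2 red hp hinj hw0 hw1 rho sn hsn m d ns m0 g0 Λ c ℓ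
    r Rs hm hc hN lm hlm hℓ hlen tyP _ Pr kw R tyN ell X M0 MM g1 N Y M A1 τ Θ σ MT δ c4 s gn htyP
    hR hLV S y f hS hf0 hw hsup L A al lamf a del G0 κ hcA hG0 hcell
  classical
  have hm0 : m ≠ 0 := by omega
  have hm1 : (1 : ℝ) ≤ m := by exact_mod_cast hm
  obtain ⟨E0, hE0⟩ : ∃ E0, E0 = 16 * Real.exp (2 * a + η) := ⟨_, rfl⟩
  have hE00 : 0 ≤ E0 := by rw [hE0]; positivity
  obtain ⟨y0, hy0⟩ : ∃ y0, y0 = ∑ j, (Real.exp (19 * γ * sn j) * (16 * m + 64) ^ 2) * r j ^ 2 :=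
    ⟨_, rfl⟩
  obtain ⟨QT, hQT⟩ : ∃ QT : Finset ℕ, QT = (Icc 1 ⌊MT * Real.exp (Θ / 2)⌋₊).filter
    (fun q => ∀ p ∈ q.primeFactors, p ∈ Pr) := ⟨_, rfl⟩
  have hmem : ∀ q : ℕ, q ∈ QT ↔ 1 ≤ q ∧ (q : ℝ) ≤ MT * Real.exp (Θ / 2) ∧
      ∀ p ∈ q.primeFactors, p ∈ Pr := by
    intro q
    rw [hQT, mem_filter, mem_Icc]
    constructor
    · rintro ⟨⟨h1, h2⟩, h3⟩
      exact ⟨h1, (Nat.le_floor_iff' (by omega)).1 h2, h3⟩
    · rintro ⟨h1, h2, h3⟩
      exact ⟨⟨h1, (Nat.le_floor_iff' (by omega)).2 h2⟩, h3⟩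
  have hκ : ∀ q ∈ QT, 0 < κ q := fun q hq => by
    obtain ⟨h1, h2, h3⟩ := (hmem q).1 hq
    exact (hcell q h1 h2 h3).1
  have hQ1 : ∀ q ∈ QT, 1 ≤ q := fun q hq => ((hmem q).1 hq).1
  rw [← hy0]
  refine ⟨Σ _ : ℕ, ℕ, QT.sigma fun q => range q,
    fun sg x => (sg.1 : ℝ) * pF w red S (fcl f sg.1 (sg.2 : ℕ)) x,
    fun sg => E0 * κ sg.1 ^ 2, fun sg => κ sg.1 * (sg.1 : ℝ) ^ (3 / (m : ℝ)), ?_, ?_, ?_, ?_, ?_⟩
  · intro sg hsg
    have h1 := (mem_sigma.1 hsg).1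
    exact mul_pos (hκ _ h1) (Real.rpow_pos_of_pos (by exact_mod_cast hQ1 _ h1) _)
  · intro sg _
    exact mul_nonneg hE00 (sq_nonneg _)
  · have h1 := U_sum m hm E0 hE00 QT hQ1 κ hκ
    have h2 : 0 ≤ ∑ sg ∈ QT.sigma (fun q => range q),
        ((E0 * κ sg.1 ^ 2) / (κ sg.1 * (sg.1 : ℝ) ^ (3 / (m : ℝ))) ^ 2) ^ m :=
      sum_nonneg fun sg _ => pow_nonneg (div_nonneg (mul_nonneg hE00 (sq_nonneg _))
        (sq_nonneg _)) _
    rw [← Real.rpow_inv_natCast_pow h2 hm0]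
    refine pow_le_pow_left₀ (Real.rpow_nonneg h2 _) (h1.trans (le_of_eq ?_)) m
    rw [hE0]
    ring
  · intro sg hsg T u hT _
    obtain ⟨h1, h2⟩ := mem_sigma.1 hsg
    obtain ⟨g1', g2', g3'⟩ := (hmem _).1 h1
    obtain ⟨hκ0, _, hth⟩ := hcell sg.1 g1' g2' g3'
    have hth' := hth sg.2 (mem_range.1 h2)
    have e2 : ∀ i : {i // lo i}, 2 * (r (ty i) * rho i) = 2 * rho i * r (ty i) := fun i => by ring
    -- sum of the rates
    have hσd : (d : ℝ) + 2 * ∑ i : {i // lo i}, (8 * m + 32) * (2 * (r (ty i) * rho i)) ≤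
        ((2 * d : ℕ) : ℝ) := by
      have h3 : ∑ i : {i // lo i}, (8 * m + 32) * (2 * (r (ty i) * rho i)) ≤
          ∑ i : {i // lo i}, (8 * m * (1 + c i)) ^ 2 * (2 * rho i * r (ty i)) := by
        refine sum_le_sum fun i _ => ?_
        rw [e2]
        refine mul_le_mul_of_nonneg_right ?_ (hN.s0 i)
        have h4 : (8 * (m : ℝ)) ^ 2 ≤ (8 * m * (1 + c i)) ^ 2 := by
          refine pow_le_pow_left₀ (by positivity) ?_ 2
          have := hc i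
          nlinarith
        nlinarith
      have h5 := hN.hd
      have h6 : (0 : ℝ) ≤ m0 := Nat.cast_nonneg _
      push_cast
      linarith
    have h7 := hs1 (w := w) (w2 := w2) (sc := fun i : {i // lo i} => sn (ty i)) (ns := ns)
      (ℓ := ℓ) (Λ := Λ) (L := L) (A := A) (α := al) (lamf := lamf) (a := a) (del := del)
      (κ := κ sg.1) (red := red) (S := S) (g := fcl f sg.1 (sg.2 : ℕ)) (q := (sg.1 : ℝ)) hth'
      (fun n hn => by
        unfold fcl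
        split_ifs
        · exact hf0 n hn
        · exact le_rfl) (fun i => hsn i)
      (σ := fun i => (8 * m + 32) * (2 * (r (ty i) * rho i))) (r := Rs)
      (fun i => by
        rw [e2]
        exact mul_nonneg (by positivity) (hN.s0 i)) hN.R0 hN.Rρ
      (fun i => by
        rw [e2]
        exact hN.Rσ i)
      (by
        refine le_trans (le_of_eq ?_) hN.cap
        congr 1
        refine sum_congr rfl fun i _ => ?_
        rw [e2]) d (2 * d) lm hlm hℓ (by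
        push_cast
        linarith) hσd T u hT
    refine h7.trans ?_
    have h8 : (∏ i ∈ T, Real.exp (al i + A i)) ^ 2 ≤ (∏ i ∈ T, c i) ^ 2 :=
      pow_le_pow_left₀ (prod_nonneg fun i _ => (Real.exp_pos _).le)
        (prod_le_prod (fun i _ => (Real.exp_pos _).le) fun i _ => hcA i) 2
    have h9 : 16 * (κ sg.1 * Real.exp a) ^ 2 *
        Real.exp (η + ∑ j ∈ range ns, Real.exp (19 * γ * j) * Rs j ^ 2) ≤
        E0 * κ sg.1 ^ 2 * Real.exp y0 := by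
      have h10 : Real.exp (η + ∑ j ∈ range ns, Real.exp (19 * γ * j) * Rs j ^ 2) ≤
          Real.exp (η + y0) := by
        refine Real.exp_le_exp.2 ?_
        rw [hy0]
        exact add_le_add le_rfl hN.Rsum
      refine (mul_le_mul_of_nonneg_left h10 (by positivity)).trans (le_of_eq ?_)
      rw [hE0, Real.exp_add η y0, Real.exp_add (2 * a) η, mul_pow, ← Real.exp_nat_mul a 2]
      push_cast
      ring
    exact mul_le_mul h8 h9 (by positivity) (sq_nonneg _)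
  · intro T x hT hx Am hAm hsg
    have hx0 : ∀ i ∈ T, 0 < w i (x i) := fun i hi => lt_of_le_of_ne (hw0 _ _) (Ne.symm (hx i hi))
    have hx1 : ∀ i ∈ T, w i (x i) ≤ 1 := fun i _ => by
      rw [← hw1 i]
      exact single_le_sum (fun a _ => hw0 i a) (mem_univ (x i))
    have hq0 : ∀ i : {i // lo i}, 0 ≤ 1 / (8 * (m : ℝ) * (1 + c i)) := fun i => by
      have := hc i
      positivity
    have hq1 : ∀ i : {i // lo i}, 1 / (8 * (m : ℝ) * (1 + c i)) ≤ 1 := fun i => by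
      have h3 := hc i
      rw [div_le_one (by positivity)]
      nlinarith
    have h3 := LV (red := red) hLV hS hf0 hw hw0 hq0 hq1 hx0 hx1 (hsup T x hT hx0) hAm hG0
      (by
        intro q h1 h2 h4 z hz
        obtain ⟨hκ0, hκ1, _⟩ := hcell q h1 h2 h4
        rw [pF_fcl]
        refine (hsg ⟨q, z⟩ (mem_sigma.2 ⟨(hmem q).2 ⟨h1, h2, h4⟩, mem_range.2 hz⟩)).trans ?_
        exact mul_le_mul_of_nonneg_left hκ1 hAm)
    refine le_trans (le_of_eq ?_) (h3.trans (le_of_eq ?_))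
    · refine sum_congr rfl fun q hq => ?_
      have hqQ := (hLV.Q q hq).1
      have e1 := omr_eq_omR hp hinj lo htyP (r := fun i => r (ty i)) hR
        (by omega : q ≠ 0)
      show omr lo prm (fun i => r (ty i)) q * kapProd kw q * _ = _
      rw [e1]
    · rw [Real.exp_add]
      ring

end Vale.Agent.P042.H635
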